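import Vale.Agent.P250.Full.Main
import Vale.Agent.P250.Full.Step
import Vale.Agent.P250.Full.PinchMain

/-!
Negative answer to P250, Q1: a simply connected complete negatively pinched Kähler manifold of
complex dimension three that is not biholomorphic to a bounded domain.
-/

namespace Vale.Agent.Results.P250.Counterexample

open Vale.Agent.P250.Full

theorem result : Disproof :=
  disproof_of step pinch

end Vale.Agent.Results.P250.Counterexample
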