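import Mathlib

/-!
Tube domains over convex bases whose complex lines carry metrics of curvature at most a negative
constant are biholomorphic to bounded domains.
-/

namespace Vale.Agent.Results.P250.TubeDomains

open Filter Set Topology
open scoped ContDiff

/-- no solution on the whole line of `u'' ≥ c exp u` -/
private lemma no_global (u u' : ℝ → ℝ) {c : ℝ} (hc : 0 < c) (h1 : ∀ t, HasDerivAt u (u' t) t)
    (u'' : ℝ → ℝ) (h2 : ∀ t, HasDerivAt u' (u'' t) t) (hineq : ∀ t, c * Real.exp (u t) ≤ u'' t)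
    {t₀ : ℝ} (ht₀ : 0 < u' t₀) : False := by
  have hd : Differentiable ℝ u := fun t => (h1 t).differentiableAt
  have hmono : StrictMono u' := strictMono_of_hasDerivAt_pos h2 fun t =>
    lt_of_lt_of_le (mul_pos hc (Real.exp_pos _)) (hineq t)
  have hpos : ∀ t, t₀ ≤ t → 0 < u' t := fun t ht => lt_of_lt_of_le ht₀ (hmono.monotone ht)
  -- energy
  have hE : MonotoneOn (fun t => u' t ^ 2 - 2 * c * Real.exp (u t)) (Ici t₀) := by
    refine monotoneOn_of_hasDerivWithinAt_nonneg (convex_Ici _) ?_
      (f' := fun t => 2 * u' t * u'' t - 2 * c * (Real.exp (u t) * u' t)) ?_ ?_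
    · exact fun t _ => ((((h2 t).pow 2).sub ((h1 t).exp.const_mul (2 * c))).continuousAt).continuousWithinAt
    · intro t _
      exact ((((h2 t).pow 2).sub ((h1 t).exp.const_mul (2 * c))).congr_deriv (by
        push_cast; ring)).hasDerivWithinAt
    · intro t ht
      rw [interior_Ici] at ht
      nlinarith [hineq t, hpos t ht.le]
  -- linear growth
  have hlin : ∀ t, t₀ ≤ t → u t₀ + u' t₀ * (t - t₀) ≤ u t := by
    intro t ht
    have := (convex_Ici t₀).mul_sub_le_image_sub_of_le_deriv hd.continuous.continuousOn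
      hd.differentiableOn (C := u' t₀) (fun s hs => by
        rw [interior_Ici] at hs; rw [(h1 s).deriv]; exact hmono.monotone hs.le)
      t₀ self_mem_Ici t ht ht
    linarith
  set K := u' t₀ ^ 2 - 2 * c * Real.exp (u t₀) with hK
  obtain ⟨T, hT, hTK⟩ : ∃ T, t₀ ≤ T ∧ ∀ t, T ≤ t → -K ≤ c * Real.exp (u t) := by
    refine ⟨t₀ + |(-K / c - 1 - u t₀) / u' t₀|, le_add_of_nonneg_right (abs_nonneg _), fun t ht => ?_⟩
    have h0 : t₀ ≤ t := by linarith [abs_nonneg ((-K / c - 1 - u t₀) / u' t₀)]
    have h3 : (-K / c - 1 - u t₀) / u' t₀ ≤ t - t₀ := by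
      linarith [le_abs_self ((-K / c - 1 - u t₀) / u' t₀)]
    rw [div_le_iff₀ ht₀] at h3
    have h4 : -K / c ≤ Real.exp (u t) := by nlinarith [hlin t h0, Real.add_one_le_exp (u t)]
    rw [div_le_iff₀ hc] at h4; linarith
  -- `exp (-u/2)` decreases linearly
  have hv : ∀ t, T ≤ t → Real.exp (-(u t) / 2) ≤ Real.exp (-(u T) / 2) - Real.sqrt c / 2 * (t - T) := by
    intro t ht
    have hdv : ∀ s, HasDerivAt (fun r => Real.exp (-(u r) / 2))
        (Real.exp (-(u s) / 2) * (-(u' s) / 2)) s := fun s => ((h1 s).neg.div_const 2).exp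
    have := (convex_Ici T).image_sub_le_mul_sub_of_deriv_le
      (fun s _ => (hdv s).continuousAt.continuousWithinAt)
      (fun s _ => (hdv s).differentiableAt.differentiableWithinAt) (C := -(Real.sqrt c / 2))
      (fun s hs => by
        rw [interior_Ici] at hs
        rw [(hdv s).deriv]
        have hs0 : t₀ ≤ s := hT.trans hs.le
        have h5 : c * Real.exp (u s) ≤ u' s ^ 2 := by
          have := hE self_mem_Ici hs0 hs0
          simp only at this
          linarith [hTK s hs.le]
        have h6 : Real.sqrt c * Real.exp (u s / 2) ≤ u' s := by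
          have : Real.sqrt (c * Real.exp (u s)) ≤ u' s := by
            rw [Real.sqrt_le_left (hpos s hs0).le]; exact h5
          rwa [Real.sqrt_mul hc.le, ← Real.exp_half] at this
        have e : Real.exp (-(u s) / 2) * Real.exp (u s / 2) = 1 := by
          rw [← Real.exp_add]; ring_nf; exact Real.exp_zero
        nlinarith [mul_le_mul_of_nonneg_left h6 (Real.exp_pos (-(u s) / 2)).le, Real.sqrt_nonneg c])
      T self_mem_Ici t ht ht
    linarith
  have hsc : 0 < Real.sqrt c := Real.sqrt_pos.2 hc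
  have := hv (T + 2 * Real.exp (-(u T) / 2) / Real.sqrt c) (le_add_of_nonneg_right (by positivity))
  have e : Real.sqrt c / 2 * (T + 2 * Real.exp (-(u T) / 2) / Real.sqrt c - T) = Real.exp (-(u T) / 2) := by
    field_simp; ring
  rw [e, sub_self] at this
  exact (not_le.2 (Real.exp_pos _)) this

/-- a positive function on the line cannot give curvature at most a negative constant -/
private lemma no_complete_line (h : ℝ → ℝ) (hs : ContDiff ℝ 2 h) (hp : ∀ t, 0 < h t) {a : ℝ}
    (ha : 0 < a) (hcurv : ∀ t, -(iteratedDeriv 2 (fun s => Real.log (h s)) t) / (2 * h t) ≤ -a) :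
    False := by
  set u := fun s => Real.log (h s) with hu
  have hus : ContDiff ℝ 2 u := hs.log fun t => (hp t).ne'
  have h1 : ∀ t, HasDerivAt u (deriv u t) t := fun t =>
    ((hus.differentiable (by simp)) t).hasDerivAt
  have hd : ContDiff ℝ 1 (deriv u) := by
    have := (contDiff_succ_iff_deriv (n := 1)).1 (hus.of_le (by norm_num))
    exact this.2.2
  have h2 : ∀ t, HasDerivAt (deriv u) (iteratedDeriv 2 u t) t := fun t => by
    rw [iteratedDeriv_succ, iteratedDeriv_one]
    exact ((hd.differentiable (by simp)) t).hasDerivAt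
  have hineq : ∀ t, (2 * a) * Real.exp (u t) ≤ iteratedDeriv 2 u t := fun t => by
    have := hcurv t
    rw [div_le_iff₀ (by linarith [hp t])] at this
    simp only [hu, Real.exp_log (hp t)]
    linarith
  have hex : ∃ t, deriv u t ≠ 0 := by
    by_contra hne
    push Not at hne
    have h0 : deriv u = fun _ => 0 := funext hne
    have h2' := h2 0
    rw [h0] at h2'
    have := h2'.unique (hasDerivAt_const 0 0)
    nlinarith [hineq 0, Real.exp_pos (u 0)]
  obtain ⟨t, ht⟩ := hex
  rcases lt_or_gt_of_ne ht with ht | ht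
  · have g1 : ∀ s, HasDerivAt (fun r => u (-r)) (-deriv u (-s)) s := fun s => by
      simpa [Function.comp_def] using (h1 (-s)).scomp s (hasDerivAt_neg s)
    have g2 : ∀ s, HasDerivAt (fun r => -deriv u (-r)) (iteratedDeriv 2 u (-s)) s := fun s => by
      simpa [Function.comp_def] using ((h2 (-s)).scomp s (hasDerivAt_neg s)).fun_neg
    exact no_global _ _ (by linarith : 0 < 2 * a) g1 _ g2 (fun s => hineq (-s))
      (t₀ := -t) (by simpa using ht)
  · exact no_global u _ (by linarith : 0 < 2 * a) h1 _ h2 hineq ht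

/-- Tube domains over convex bases with negatively curved complex lines are biholomorphic to
bounded domains. -/
theorem result {n : ℕ} (Ω : Set (Fin n → ℝ)) (hΩ : IsOpen Ω) (hconv : Convex ℝ Ω) (hne : Ω.Nonempty)
    (g : (Fin n → ℝ) → Matrix (Fin n) (Fin n) ℝ) (hg : ∀ i j, ContDiffOn ℝ ∞ (fun x => g x i j) Ω)
    (hpos : ∀ x ∈ Ω, ∀ v : Fin n → ℝ, v ≠ 0 → 0 < ∑ i, ∑ j, g x i j * v i * v j)
    (a : ℝ) (ha : 0 < a)
    (hcurv : ∀ (x v : Fin n → ℝ), v ≠ 0 → (∀ t : ℝ, x + t • v ∈ Ω) → ∀ t : ℝ,
      -(iteratedDeriv 2 (fun s : ℝ => Real.log (∑ i, ∑ j, g (x + s • v) i j * v i * v j)) t) /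
          (2 * ∑ i, ∑ j, g (x + t • v) i j * v i * v j) ≤ -a) :
    ∃ (D : Set (Fin n → ℂ)) (F G : (Fin n → ℂ) → (Fin n → ℂ)),
      IsOpen D ∧ IsConnected D ∧ Bornology.IsBounded D ∧
      DifferentiableOn ℂ F {z | (fun i => (z i).re) ∈ Ω} ∧ DifferentiableOn ℂ G D ∧
      MapsTo F {z | (fun i => (z i).re) ∈ Ω} D ∧ MapsTo G D {z | (fun i => (z i).re) ∈ Ω} ∧
      (∀ z, (fun i => (z i).re) ∈ Ω → G (F z) = z) ∧ ∀ w ∈ D, F (G w) = w := by
  classical
  obtain ⟨x₀, hx₀⟩ := hne
  -- no lines
  have hline : ∀ v : Fin n → ℝ, v ≠ 0 → ∃ t : ℝ, x₀ + t • v ∉ Ω := by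
    intro v hv
    by_contra hall
    push Not at hall
    refine no_complete_line (fun s => ∑ i, ∑ j, g (x₀ + s • v) i j * v i * v j) ?_
      (fun t => hpos _ (hall t) v hv) ha (hcurv x₀ v hv hall)
    refine ContDiff.sum fun i _ => ContDiff.sum fun j _ => ?_
    refine ((ContDiffOn.comp_contDiff ((hg i j).of_le (WithTop.coe_le_coe.2 le_top))
      (by fun_prop) hall).mul contDiff_const).mul contDiff_const
  -- functionals bounded above
  set S : Set (Fin n → ℝ) := {f | ∃ C : ℝ, ∀ y ∈ Ω, ∑ i, f i * y i < C} with hS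
  have hspan : Submodule.span ℝ S = ⊤ := by
    by_contra hne'
    obtain ⟨φ, hφ0, hφ⟩ := Submodule.exists_le_ker_of_lt_top _ (lt_top_iff_ne_top.2 hne')
    set v : Fin n → ℝ := fun i => φ (Pi.single i 1) with hv
    have hφv : ∀ f, φ f = ∑ i, f i * v i := fun f => by
      conv_lhs => rw [pi_eq_sum_univ' f]
      simp [map_sum, hv]
    have hv0 : v ≠ 0 := fun h => hφ0 <| LinearMap.ext fun f => by simp [hφv, h]
    obtain ⟨t, ht⟩ := hline v hv0
    obtain ⟨f, hf⟩ := geometric_hahn_banach_open_point hconv hΩ ht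
    set F : Fin n → ℝ := fun i => f (Pi.single i 1) with hF
    have hfF : ∀ y, f y = ∑ i, F i * y i := fun y => by
      conv_lhs => rw [pi_eq_sum_univ' y]
      simp [map_sum, hF, mul_comm]
    have hFS : F ∈ S := ⟨f (x₀ + t • v), fun y hy => by rw [← hfF]; exact hf y hy⟩
    have h0 : φ F = 0 := hφ (Submodule.subset_span hFS)
    rw [hφv] at h0
    have := hf x₀ hx₀
    rw [map_add, map_smul, hfF v, h0] at this
    simp at this
  obtain ⟨b, hbS, hbspan, hbind⟩ := exists_linearIndependent ℝ S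
  have hbas : Submodule.span ℝ (Set.range ((↑) : b → Fin n → ℝ)) = ⊤ := by
    rw [Subtype.range_coe, hbspan, hspan]
  let B := Module.Basis.mk hbind hbas.ge
  have : Fintype b := @Fintype.ofFinite _ (Module.Finite.finite_basis B)
  have hcard : Fintype.card b = n := by
    rw [← Module.finrank_eq_card_basis B, Module.finrank_fin_fun]
  let e : Fin n ≃ b := (Fintype.equivFinOfCardEq hcard).symm
  set A : Matrix (Fin n) (Fin n) ℝ := fun i j => (e i : Fin n → ℝ) j with hA
  have hAu : IsUnit A := by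
    rw [← Matrix.linearIndependent_rows_iff_isUnit]
    exact hbind.comp e e.injective
  have hAdet : IsUnit A.det := (Matrix.isUnit_iff_isUnit_det A).1 hAu
  choose C hC using fun i : Fin n => hbS (e i).2
  set AC : Matrix (Fin n) (Fin n) ℂ := A.map (algebraMap ℝ ℂ) with hAC
  set AI : Matrix (Fin n) (Fin n) ℂ := A⁻¹.map (algebraMap ℝ ℂ) with hAI
  have hinv : AI * AC = 1 := by
    rw [hAI, hAC, ← Matrix.map_mul, Matrix.nonsing_inv_mul _ hAdet]
    simp
  have hinv' : AC * AI = 1 := by
    rw [hAI, hAC, ← Matrix.map_mul, Matrix.mul_nonsing_inv _ hAdet]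
    simp
  set T : Set (Fin n → ℂ) := {z | (fun i => (z i).re) ∈ Ω} with hT
  set F : (Fin n → ℂ) → (Fin n → ℂ) := fun z i => 1 / ((AC.mulVec z) i - (C i + 1)) with hFdef
  set G : (Fin n → ℂ) → (Fin n → ℂ) := fun w => AI.mulVec fun i => (C i + 1 : ℂ) + 1 / w i with hGdef
  have hre : ∀ z ∈ T, ∀ i, ((AC.mulVec z) i - (C i + 1)).re < -1 := by
    intro z hz i
    have := hC i (fun i => (z i).re) hz
    have e : ((AC.mulVec z) i).re = ∑ j, A i j * (z j).re := by
      simp only [hAC, Matrix.mulVec, dotProduct, Complex.re_sum]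
      exact Finset.sum_congr rfl fun j _ => by simp [Matrix.map_apply]
    rw [Complex.sub_re, Complex.add_re, Complex.ofReal_re, Complex.one_re, e]
    simp only [hA]
    linarith
  have hden : ∀ z ∈ T, ∀ i, (AC.mulVec z) i - (C i + 1) ≠ 0 := fun z hz i h => by
    have := hre z hz i; rw [h, Complex.zero_re] at this; linarith
  have hGF : ∀ z ∈ T, G (F z) = z := by
    intro z hz
    have : (fun i => (C i + 1 : ℂ) + 1 / F z i) = AC.mulVec z := by
      funext i; simp only [hFdef, one_div_one_div]; ring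
    simp only [hGdef, this, Matrix.mulVec_mulVec, hinv, Matrix.one_mulVec]
  have hFG : ∀ w, F (G w) = w := by
    intro w; funext i
    simp only [hFdef, hGdef, Matrix.mulVec_mulVec, hinv', Matrix.one_mulVec]
    rw [add_sub_cancel_left, one_div_one_div]
  have hGc : ∀ w : Fin n → ℂ, (∀ i, w i ≠ 0) → DifferentiableAt ℂ G w := by
    intro w hw
    rw [hGdef, differentiableAt_pi]
    intro i
    show DifferentiableAt ℂ (fun w : Fin n → ℂ => ∑ j, AI i j * ((C j + 1 : ℂ) + 1 / w j)) w
    refine DifferentiableAt.fun_sum fun j _ => ?_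
    have hq : DifferentiableAt ℂ (fun w : Fin n → ℂ => w j) w := by fun_prop
    have hne : (fun w : Fin n → ℂ => w j) w ≠ 0 := hw j
    fun_prop (disch := exact hne)
  have hFc : ∀ z ∈ T, DifferentiableAt ℂ F z := by
    intro z hz
    rw [hFdef, differentiableAt_pi]
    intro i
    show DifferentiableAt ℂ (fun x : Fin n → ℂ => 1 / ((∑ j, AC i j * x j) - (C i + 1))) z
    have hne : (∑ j, AC i j * z j) - (C i + 1) ≠ 0 := hden z hz i
    fun_prop (disch := exact hne)
  set D : Set (Fin n → ℂ) := F '' T with hD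
  have hD' : D = {w | ∀ i, w i ≠ 0} ∩ G ⁻¹' T := by
    ext w; constructor
    · rintro ⟨z, hz, rfl⟩
      exact ⟨fun i => one_div_ne_zero (hden z hz i), by rw [Set.mem_preimage, hGF z hz]; exact hz⟩
    · rintro ⟨_, hw⟩; exact ⟨G w, hw, hFG w⟩
  have hTo : IsOpen T := hΩ.preimage (by fun_prop)
  have hDo : IsOpen D := by
    rw [hD']
    have ho : IsOpen {w : Fin n → ℂ | ∀ i, w i ≠ 0} := by
      rw [ofPred_forall]; exact isOpen_iInter_of_finite fun i => isOpen_ne.preimage (continuous_apply i)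
    exact ContinuousOn.isOpen_inter_preimage
      (fun w hw => (hGc w hw).continuousAt.continuousWithinAt) ho hTo
  have hTc : IsConnected T := by
    have : Convex ℝ T := by
      have hl : IsLinearMap ℝ fun z : Fin n → ℂ => fun i => (z i).re :=
        ⟨fun x y => by funext i; simp, fun c x => by funext i; simp⟩
      exact hconv.is_linear_preimage hl
    exact this.isConnected ⟨fun i => (x₀ i : ℂ), by simpa [hT] using hx₀⟩
  refine ⟨D, F, G, hDo, hTc.image _ fun z hz => (hFc z hz).continuousAt.continuousWithinAt, ?_,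
    fun z hz => (hFc z hz).differentiableWithinAt, ?_, fun z hz => ⟨z, hz, rfl⟩, ?_, hGF,
    fun w _ => hFG w⟩
  · refine (Metric.isBounded_closedBall (x := (0 : Fin n → ℂ)) (r := 1)).subset ?_
    rintro w ⟨z, hz, rfl⟩
    rw [mem_closedBall_zero_iff, pi_norm_le_iff_of_nonneg zero_le_one]
    intro i
    simp only [hFdef, norm_div, norm_one]
    rw [div_le_one (norm_pos_iff.2 (hden z hz i))]
    exact le_trans (by linarith [hre z hz i, neg_le_abs ((AC.mulVec z) i - (C i + 1)).re])
      (Complex.abs_re_le_norm _)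
  · intro w hw; rw [hD'] at hw; exact (hGc w hw.1).differentiableWithinAt
  · intro w hw; rw [hD'] at hw; exact hw.2

end Vale.Agent.Results.P250.TubeDomains
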